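import Vale.Agent.P014T.Lc.Fx
import Vale.Agent.P027H.Unif
import Vale.Agent.P027M.M.Defs

/-! # P014U: division points of algebraic points, and small local points -/

set_option linter.all false

open WeierstrassCurve WeierstrassCurve.Affine Polynomial NumberField Filter
open scoped Classical NNReal

noncomputable section

namespace Vale.Agent.P014U.Sh.Lp

open P004M.TE P004H.H666

section alg

variable {k κ L : Type} [Field k] [Field κ] [Field L] [Algebra k κ] [Algebra k L] [IsAlgClosed κ]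
  {a b : k} (h2 : (2 : k) ≠ 0) (hD : 4 * a ^ 3 + 27 * b ^ 2 ≠ 0)
include h2 hD

theorem hd_n {t u : L} (h : (Cv L a b).Nonsingular t u)
    (ht : Function.Injective (aeval t : k[X] →ₐ[k] L)) (n : ℕ) :
    Hd t (n • Point.some t u h) (n ^ 2) := by
  obtain ⟨D, β, e, -, e2, -⟩ := exists_D h2 hD h ht
  have h1 : D ⟨_, gen_mem h2 hD h ht⟩ = (1 : ℕ) := (e _ 1).1 ⟨X, 1,
    ⟨isCoprime_one_right, 1, one_ne_zero, by simp, by simp⟩, by simp, natDegree_X⟩
  have h3 := e2 (n • ⟨_, gen_mem h2 hD h ht⟩)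
  rw [map_nsmul, map_nsmul, AddMonoidHom.nsmul_apply, e2, h1] at h3
  exact (e (n • ⟨_, gen_mem h2 hD h ht⟩) (n ^ 2)).2 (by
    simp only [nsmul_eq_mul] at h3
    generalize D _ = d at h3 ⊢
    push_cast at h3 ⊢
    linarith)

/-- **division points of algebraic points are algebraic** -/
theorem alg (ι : κ →ₐ[k] L) {n : ℕ} (n0 : n ≠ 0) {R : (Cv L a b).Point}
    (h : n • R ∈ (pa ι).range) : R ∈ (pa ι).range := by
  by_contra c
  let _ : Algebra κ L := ι.toRingHom.toAlgebra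
  have : IsScalarTower k κ L := IsScalarTower.of_algHom ι
  obtain ⟨t, u, m, rfl, ht⟩ := gen_of (κ := κ) h2 hD c
  have H := hd_n h2 hD m ht n
  obtain ⟨_ | ⟨x, y, q⟩, e⟩ := h
  · exact pow_ne_zero 2 n0 (H.unique ht (e ▸ (map_zero (pa ι)).symm ▸ hd_zero t))
  obtain ⟨f, g, ⟨-, ρ, -, hx, hz⟩, hd, -⟩ := H
  rw [← e, pa_some] at hx hz
  rw [xp_some] at hx
  rw [zp_some] at hz
  have h0 : f.map (algebraMap k κ) - C x * g.map (algebraMap k κ) ≠ 0 := fun z => by
    have := dC_le x (g.map (algebraMap k κ))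
    rw [← sub_eq_zero.1 z, degree_map, degree_map] at this
    exact this.not_gt hd
  obtain ⟨w, rfl⟩ := (IsAlgClosed.splits _).mem_range_of_isRoot (i := ι.toRingHom) h0 (x := t) (by
    have e1 : ∀ p : k[X], eval t ((p.map (algebraMap k κ)).map ι.toRingHom) = aeval t p := fun p => by
      rw [Polynomial.map_map, show ι.toRingHom.comp (algebraMap k κ) = algebraMap k L from
        RingHom.ext ι.commutes, eval_map_algebraMap]
    rw [IsRoot.def, Polynomial.map_sub, Polynomial.map_mul, map_C, eval_sub, eval_mul, eval_C, e1, e1]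
    change _ - ι x * _ = 0
    linear_combination aeval t f * hz - aeval t g * hx)
  obtain ⟨y₀, h₀⟩ := exists_pt h2 hD w
  rcases xp_eq (P := .some _ u m) (Q := pa ι (.some w y₀ h₀)) (Point.some_ne_zero _)
    (by rw [pa_some]; exact Point.some_ne_zero _) (by rw [xp_pa]; rfl) with e | e
  · exact c ⟨_, e.symm⟩
  · exact c ⟨-_, by rw [map_neg, e]⟩

end alg

section cx

variable {a b : ℚ} (hD : 4 * a ^ 3 + 27 * b ^ 2 ≠ 0) {n : ℕ} (n0 : n ≠ 0)
include hD

theorem unif : ∃ (L : PeriodPair) (ex : ℂ →+ (Cv ℂ a b).Point), Function.Surjective ex ∧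
    ∀ z, ex z = 0 ↔ z ∈ L.lattice := by
  obtain ⟨_, ⟨L, rfl⟩, -, -, ex, s, k, -⟩ := P027H.exists_unif (algebraMap ℚ ℂ a) (algebraMap ℚ ℂ b)
    (by simpa using (Rat.cast_injective (α := ℂ)).ne hD)
  exact ⟨L, ex, s, k⟩

include n0

/-- **the algebraic points form a divisible group** -/
theorem div_n (y : (Cv Qb a b).Point) : ∃ z, n • z = y := by
  obtain ⟨L, ex, s, -⟩ := unif hD
  obtain ⟨w, e⟩ := s (pa P027M.M.io y)
  have k : n • ex (w / n) = pa P027M.M.io y := by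
    rw [← map_nsmul, nsmul_eq_mul, mul_div_cancel₀ _ (Nat.cast_ne_zero.2 n0), e]
  obtain ⟨z, c⟩ := alg two_ne_zero hD P027M.M.io n0 ⟨y, k.symm⟩
  exact ⟨z, pa_inj P027M.M.io (by rw [map_nsmul, c, k])⟩

/-- **the number of torsion points** -/
theorem card_n : Nat.card {y : (Cv Qb a b).Point // n • y = 0} = n ^ 2 := by
  obtain ⟨L, ex, s, k⟩ := unif hD
  have c0 : (n : ℂ) ≠ 0 := Nat.cast_ne_zero.2 n0
  have t : ∀ i j : ℤ, n • ex ((i * L.ω₁ + j * L.ω₂) / n) = 0 := fun i j => by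
    rw [← map_nsmul, nsmul_eq_mul, mul_div_cancel₀ _ c0, k]
    exact PeriodPair.mem_lattice.2 ⟨i, j, rfl⟩
  choose f hf using fun i j : ℤ => alg two_ne_zero hD P027M.M.io n0 (R := ex _)
    ((t i j).symm ▸ zero_mem _)
  have : NeZero n := ⟨n0⟩
  rw [show n ^ 2 = Nat.card (ZMod n × ZMod n) by simp [sq]]
  refine (Nat.card_congr (Equiv.ofBijective (fun x : ZMod n × ZMod n => ⟨f x.1.val x.2.val,
    pa_inj P027M.M.io (by rw [map_nsmul, hf, t, map_zero])⟩) ⟨fun x y e => ?_, fun ⟨y, e⟩ => ?_⟩)).symm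
  · have := congrArg (fun y => pa P027M.M.io y.1) e
    simp only [hf] at this
    rw [← sub_eq_zero, ← map_sub, k] at this
    obtain ⟨i, j, e⟩ := PeriodPair.mem_lattice.1 this
    have := LinearIndependent.pair_iff.1 L.indep ((x.1.val - y.1.val - n * i : ℤ) : ℝ)
      ((x.2.val - y.2.val - n * j : ℤ) : ℝ) (by
        field_simp at e
        simp only [Complex.real_smul]
        push_cast at e ⊢
        linear_combination -e)
    have q := fun m : ℤ => congrArg (Int.cast : ℤ → ZMod n) ∘ (Int.cast_eq_zero (α := ℝ) (n := m)).1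
    exact Prod.ext (sub_eq_zero.1 (by simpa using q _ this.1)) (sub_eq_zero.1 (by simpa using q _ this.2))
  · obtain ⟨w, c⟩ := s (pa P027M.M.io y)
    obtain ⟨i, j, d⟩ := PeriodPair.mem_lattice.1 ((k (n * w)).1 (by
      rw [← nsmul_eq_mul, map_nsmul, c, ← map_nsmul, e, map_zero]))
    refine ⟨(i, j), Subtype.ext (pa_inj P027M.M.io ?_)⟩
    rw [hf, ← c, ← sub_eq_zero, ← map_sub, k]
    refine PeriodPair.mem_lattice.2 ⟨-(i / n), -(j / n), ?_⟩
    rw [ZMod.val_intCast, ZMod.val_intCast, Int.emod_def, Int.emod_def]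
    push_cast
    field_simp
    linear_combination -d

end cx

open P014T.Lc P179W

/-- small points are divisible -/
theorem small {F : Type} [NormedField F] [IsUltrametricDist F] [CompleteSpace F] [CharZero F]
    {E : WeierstrassCurve F} (hc : CoeffIn E {z | nv F z ≤ 1}) (hΔ : E.Δ ≠ 0) {p n : ℕ} (p0 : p ≠ 0)
    (p1 : ‖(p : F)‖ < 1) (n0 : n ≠ 0) {x y : F} (h : E.toAffine.Nonsingular x y)
    (b : 1 < ‖x‖ * (‖(p : F)‖ * ‖(n : F)‖) ^ 2) : ∃ Q, n • Q = Point.some x y h := by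
  obtain ⟨l, hl⟩ := ex_lg hc p0 p1
  have n1 : ‖(n : F)‖ ≤ 1 := IsUltrametricDist.norm_natCast_le_one F n
  have n2 : 0 < ‖(n : F)‖ := norm_pos_iff.2 (Nat.cast_ne_zero.2 n0)
  have p2 : 0 < ‖(p : F)‖ := norm_pos_iff.2 (Nat.cast_ne_zero.2 p0)
  have q : ‖(p : F)‖ * ‖(n : F)‖ ≤ ‖(p : F)‖ := mul_le_of_le_one_right p2.le n1
  have x1 : 1 < ‖x‖ := b.trans_le (mul_le_of_le_one_right (norm_nonneg _)
    (pow_le_one₀ (by positivity) (q.trans p1.le)))
  have k : KerV (nv F) (Point.some x y h) := not_le.2 x1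
  have z : ‖x‖ * ‖zf (Point.some x y h)‖ ^ 2 = 1 :=
    congrArg NNReal.toReal (bas hc h.1 (show 1 < nv F x from x1)).2.2.1
  have m : ‖zf (Point.some x y h)‖ < ‖(p : F)‖ * ‖(n : F)‖ :=
    lt_of_pow_lt_pow_left₀ 2 (by positivity) (lt_of_mul_lt_mul_left (z ▸ b) (norm_nonneg x))
  have c : ‖l (.some x y h) / n‖ < ‖(p : F)‖ := by
    rwa [norm_div, div_lt_iff₀ n2, hl.norm hc k (m.trans_le q)]
  obtain ⟨Q, a1, a2, a3⟩ := hl.surj hc hΔ c
  have o : 0 < nv F p := p2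
  have u : n • Q - .some x y h ∈ Fo hc _ o :=
    sub_mem (nsmul_mem (show Q ∈ Fo hc _ o from ⟨a1, a2.trans_lt c⟩) n) ⟨k, m.trans_le q⟩
  refine ⟨Q, sub_eq_zero.1 (zf_eq_zero hc u.1 (norm_eq_zero.1 ?_))⟩
  rw [← hl.norm hc u.1 u.2, map_sub, map_nsmul, a3, nsmul_eq_mul,
    mul_div_cancel₀ _ (Nat.cast_ne_zero.2 n0), sub_self, norm_zero]

end Vale.Agent.P014U.Sh.Lp
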