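import Vale.Agent.P014U.Base
import Vale.Agent.P014U.Sh.Alg

/-! # P014U: local triviality at a finite prime in terms of a decomposition group -/

set_option linter.all false

open WeierstrassCurve WeierstrassCurve.Affine Polynomial NumberField Filter
open scoped Classical NNReal

noncomputable section

namespace Vale.Agent.P014U.Sh.Lp

export Vale.Agent.P014T.Sh.Lp (ps ps_eq eqn near of_x of_ps act_mul cj tm mp_act nm ov_PP ex_s lt_iff)

open Vale.Agent.P014 Vale.Agent.P022D.Loc2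
open Vale.Agent.P022 (Qb)
open Vale.Agent.P022D.W (dec)
open Vale.Agent.P022E.GW (Ov)
open P014T.Sm P014T.Lc

variable {E : WeierstrassCurve ℚ} [E.IsElliptic] {n : ℕ}

section

variable {L : Type} [Field L] [Algebra ℚ L] (ι : Qb →ₐ[ℚ] L)

theorem of_n (n0 : n ≠ 0) {R : (E⁄L).toAffine.Point} (h : ∃ S, Point.map (W' := E) ι S = n • R) :
    ∃ Q, Point.map (W' := E) ι Q = R := by
  obtain ⟨A, B, u, r, s, t, m⟩ := ex_md E
  obtain ⟨S, e⟩ := h
  obtain ⟨Q, c⟩ := alg two_ne_zero (by exact_mod_cast m.hD) ι n0 (R := iso m L R)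
    ⟨iso m Qb S, by rw [← iso_map, e, map_nsmul]⟩
  exact ⟨(iso m Qb).symm Q, (iso m L).injective (by rw [iso_map, AddEquiv.apply_symm_apply, c])⟩

theorem div_E (n0 : n ≠ 0) (y : Pbar E) : ∃ z, n • z = y := by
  obtain ⟨A, B, u, r, s, t, m⟩ := ex_md E
  obtain ⟨z, c⟩ := div_n (by exact_mod_cast m.hD) n0 (iso m Qb y)
  exact ⟨(iso m Qb).symm z, (iso m Qb).injective (by rw [map_nsmul, AddEquiv.apply_symm_apply, c])⟩

end

variable {p : ℕ} [hp : Fact p.Prime]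

theorem small_E (n0 : n ≠ 0) : ∃ B : ℝ, ∀ (x y : ℚ_[p]) (h : (E⁄ℚ_[p]).toAffine.Nonsingular x y),
    B < ‖x‖ → ∃ Q, n • Q = Point.some x y h := by
  obtain ⟨A, B, u, r, s, t, m⟩ := ex_md E
  have u0 : 0 < ‖algebraMap ℚ ℚ_[p] u ^ 2‖ :=
    norm_pos_iff.2 (pow_ne_zero _ ((_root_.map_ne_zero _).2 m.ne))
  have c0 : 0 < (‖(p : ℚ_[p])‖ * ‖(n : ℚ_[p])‖) ^ 2 := pow_pos (mul_pos
    (norm_pos_iff.2 (Nat.cast_ne_zero.2 hp.out.ne_zero)) (norm_pos_iff.2 (Nat.cast_ne_zero.2 n0))) 2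
  refine ⟨(1 / (‖(p : ℚ_[p])‖ * ‖(n : ℚ_[p])‖) ^ 2 + ‖algebraMap ℚ ℚ_[p] r‖) /
    ‖algebraMap ℚ ℚ_[p] u ^ 2‖, fun x y h b => ?_⟩
  obtain ⟨h', e⟩ := iso_some m h
  obtain ⟨Q, c⟩ := small (cfs ℚ_[p] A B) (by
    have := (Rat.cast_injective (α := ℚ_[p])).ne (show (4 * A ^ 3 + 27 * B ^ 2 : ℚ) ≠ 0 by
      exact_mod_cast m.hD)
    simp only [Δ, b₂, b₄, b₆, b₈]
    simp at this ⊢
    exact fun z => this (by linear_combination -z / 16)) hp.out.ne_zero Padic.norm_p_lt_one n0 h' (by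
      rw [div_lt_iff₀ u0, mul_comm ‖x‖, ← norm_mul (_ ^ 2) x] at b
      rw [← div_lt_iff₀ c0]
      linarith [norm_le_add_norm_add (algebraMap ℚ ℚ_[p] u ^ 2 * x) (algebraMap ℚ ℚ_[p] r)])
  exact ⟨(iso m _).symm Q, (iso m _).injective (by rw [map_nsmul, AddEquiv.apply_symm_apply, c, e])⟩

/-- **density**: local points are algebraic modulo `n` -/
theorem base_n (n0 : n ≠ 0) {T : (E⁄(PadicAlgCl p)).toAffine.Point} (hT : ∀ τ, tm E τ T = T) :
    ∃ S T', (∀ τ, tm E τ T' = T') ∧ T = Point.map (W' := E) (io p) S + n • T' := by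
  by_cases hr : ∃ S, Point.map (W' := E) (io p) S = T
  · exact hr.imp fun S h => ⟨0, fun _ => rfl, by simp [h]⟩
  rcases T with _ | ⟨x, y, h⟩
  · exact absurd ⟨0, rfl⟩ hr
  haveI : (E⁄(PadicAlgCl p)).IsElliptic := inferInstanceAs (E.map _).IsElliptic
  have hx : ¬ ∃ w, io p w = x := fun k => hr (of_x _ h k)
  have fx := fun τ => Point.some.inj (hT τ)
  obtain ⟨a, ha⟩ := (InfiniteGalois.mem_range_algebraMap_iff_fixed (k := ℚ_[p]) x).2
    fun τ => (fx τ).1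
  obtain ⟨B, hB⟩ := small_E (E := E) (p := p) n0
  obtain ⟨ε, ε0, H⟩ := Metric.eventually_nhds_iff.1 (near h (fun c => hx (of_ps _ c)) B)
  obtain ⟨q, hq⟩ := Padic.rat_dense p a ε0
  obtain ⟨s, hs, lt, H⟩ := H (y := q) (by
    rw [dist_comm, dist_eq_norm, ← ha, ← map_ratCast (algebraMap ℚ_[p] (PadicAlgCl p)), ← map_sub]
    exact (PadicAlgCl.norm_extends p _).trans_lt hq) fun c => hx ⟨q, by simpa using c⟩
  have m := equation_iff_nonsingular.1 (eqn hs)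
  obtain ⟨X, Y, k, e, b⟩ := H m
  obtain ⟨S, hS⟩ := of_x (io p) m ⟨q, by simp⟩
  have fs : ∀ τ : Gal(PadicAlgCl p / ℚ_[p]), τ s = s := fun τ =>
    (sq_eq_sq_iff_eq_or_eq_neg.1 (show τ s ^ 2 = s ^ 2 by
      rw [← map_pow, hs]; simp [ps, WeierstrassCurve.baseChange, map_ofNat])).resolve_right fun c => by
      rw [← nm τ, map_sub, c, ← norm_neg] at lt
      have f1 : τ x = x := (fx τ).1
      have f2 : τ y = y := (fx τ).2
      simp [WeierstrassCurve.baseChange, map_ofNat, f1, f2, add_comm] at lt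
  obtain ⟨_ | ⟨X', Y', k'⟩, c⟩ := jm_rg.1 (show ∀ τ, tm E τ (.some X Y k) = .some X Y k from fun τ => by
    rw [← e, map_sub, hT]
    refine congrArg (· - _) ((Point.some.injEq ..).mpr ⟨by simp, ?_⟩)
    simp [WeierstrassCurve.baseChange, map_ofNat, fs])
  · exact absurd c.symm (Point.some_ne_zero _)
  obtain ⟨Q, d⟩ := hB X' Y' k' (b.trans_eq ((congrArg norm (Point.some.inj c).1).symm.trans
    (PadicAlgCl.norm_extends p _)))
  exact ⟨S, jm E p (-Q), jm_rg.2 ⟨_, rfl⟩, by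
    rw [hS, map_neg, smul_neg, ← map_nsmul, d, c, ← e, ← sub_eq_add_neg, sub_sub_cancel]⟩

/-- **local triviality at `p`** -/
theorem loc_n (n0 : n ≠ 0) {P : Ideal (𝓞 Qb)} (o : Ov p P) {c : GQ → Pbar E}
    (hc : ∀ σ τ, c (σ * τ) = c σ + act E σ (c τ)) (h2 : ∀ g, n • c g = 0) :
    LocallyTrivial E ℚ_[p] c ↔ ∃ Q : Pbar E, ∀ g ∈ dec P, c g = act E g Q - Q := by
  rw [lt_iff]
  refine ⟨fun H => ?_, fun H ι => ?_⟩
  · obtain ⟨t, -, ht⟩ := P004S.ex_conj ov_PP o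
    refine cj hc t ht ?_
    obtain ⟨R, hR⟩ := H (io p)
    have hR := fun τ => hR τ _ (io_jj p τ)
    obtain ⟨S, T, a, b⟩ := base_n n0 (T := n • R) fun τ => by
      rw [map_nsmul, ← sub_eq_zero, ← smul_sub, ← hR, ← map_nsmul, h2, map_zero]
    obtain ⟨Q, hQ⟩ := of_n (io p) n0 (R := R - T) ⟨S, by rw [smul_sub, b, add_sub_cancel_right]⟩
    refine ⟨Q, fun g hg => ?_⟩
    obtain ⟨τ, rfl⟩ := (range_jj p g).1 hg
    apply Point.map_injective (W' := E) (io p)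
    rw [hR, map_sub, mp_act (io_jj p τ), hQ, map_sub, a, sub_sub_sub_cancel_right]
  · obtain ⟨t, -, ht⟩ := P004S.ex_conj o ov_PP
    obtain ⟨s, hs⟩ := ex_s ι
    obtain ⟨Q, hQ⟩ := cj hc (D' := fun g => s * g * s⁻¹ ∈ dec (PP p)) s⁻¹
      (fun g a => by rwa [inv_inv]) (cj hc t ht H)
    refine ⟨Point.map (W' := E) ι Q, fun τ σ h => ?_⟩
    rw [hQ σ ((range_jj p _).2 ⟨τ, AlgEquiv.ext fun x => io_inj p ?_⟩), map_sub, mp_act h]
    rw [io_jj, AlgEquiv.mul_apply, AlgEquiv.mul_apply, hs, h, ← hs, ← AlgEquiv.mul_apply,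
      mul_inv_cancel, AlgEquiv.one_apply]

variable [Pp]

omit hp in
theorem of_pow {L : Type} [Field L] [Algebra ℚ L] (ι : Qb →ₐ[ℚ] L) (k : ℕ) {R : (E⁄L).toAffine.Point}
    (h : ∃ S, Point.map (W' := E) ι S = pp ^ k • R) : ∃ Q, Point.map (W' := E) ι Q = R :=
  of_n ι (pow_ne_zero k pp_ne) h

theorem base {T : (E⁄(PadicAlgCl p)).toAffine.Point} (hT : ∀ τ, tm E τ T = T) :
    ∃ S T', (∀ τ, tm E τ T' = T') ∧ T = Point.map (W' := E) (io p) S + pp • T' := base_n pp_ne hT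

theorem iter (k : ℕ) {T : (E⁄(PadicAlgCl p)).toAffine.Point} (hT : ∀ τ, tm E τ T = T) :
    ∃ S T', (∀ τ, tm E τ T' = T') ∧ T = Point.map (W' := E) (io p) S + pp ^ k • T' :=
  base_n (pow_ne_zero k pp_ne) hT

theorem loc_iff {P : Ideal (𝓞 Qb)} (o : Ov p P) {c : GQ → Pbar E}
    (hc : ∀ σ τ, c (σ * τ) = c σ + act E σ (c τ)) {k : ℕ} (h2 : ∀ g, pp ^ k • c g = 0) :
    LocallyTrivial E ℚ_[p] c ↔ ∃ Q : Pbar E, ∀ g ∈ dec P, c g = act E g Q - Q :=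
  loc_n (pow_ne_zero k pp_ne) o hc h2

end Vale.Agent.P014U.Sh.Lp
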