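import Vale.Agent.P014U.Sh.Ur
import Vale.Agent.P014T.Ht.Sh
import Vale.Agent.P014U.Bt.Defs
import Vale.Agent.P014T.Sh.Br

/-!
# P014U: the framed Selmer group and the group of Tate and Shafarevich
-/

set_option linter.all false

open WeierstrassCurve NumberField
open scoped Classical

noncomputable section

namespace Vale.Agent.P014U.Sh

open Vale.Agent.P022 (Qb GQ IsConj)
open Vale.Agent.P022D.W (dec inP_le_dec)
open Vale.Agent.P022E.GW (Ov)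
open P004M.TE (Pt ga)
open Vale.Agent.P014 (Pbar act LocallyTrivial shaCocycles coboundaries Sha shaPrimary)
open Bt Vale.Agent.P014T.Sm

export Vale.Agent.P014T.Sh (km_iff)

variable [Pp] {E : WeierstrassCurve ℚ} [E.IsElliptic] {A B : ℤ} {u r s t : ℚ} (h : Md E A B u r s t)
  {S : Finset ℕ} {c : GQ} {P : ℕ → Ideal (𝓞 Qb)}

variable (hS : ∀ l : ℕ, l.Prime → (l : ℤ) ∣ 2 * pp * (4 * A ^ 3 + 27 * B ^ 2) → l ∈ S) (hc : IsConj c)
  (hP : ∀ p ∈ S, Ov p (P p))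
include hS hc hP

/-- the framed Selmer group in terms of `E` -/
theorem zs_iff {x : GQ → Pbar E} : (fun g => iso h Qb (x g)) ∈ Zs A B S c P ↔
    x ∈ shaCocycles E ∧ (∃ k : ℕ, ∀ g, pp ^ k • x g = 0) ∧ x c = 0 := by
  have e0 : ∀ {y}, iso h Qb y = 0 ↔ y = 0 := (iso h Qb).map_eq_zero_iff
  rw [mem_Zs]
  refine ⟨fun ⟨⟨a1, a2, ⟨k, a3⟩, a4, a5⟩, a6⟩ => ?_, fun ⟨⟨a1, a2, a3, a4⟩, ⟨k, a5⟩, a6⟩ => ?_⟩
  · have b2 : ∀ σ τ, x (σ * τ) = x σ + act E σ (x τ) := fun σ τ =>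
      (iso h Qb).injective (by rw [map_add, iso_act]; exact a2 σ τ)
    have b3 : ∀ g, pp ^ k • x g = 0 := fun g => e0.1 ((map_nsmul ..).trans (a3 g))
    refine ⟨⟨IsLocallyConstant.desc _ _ a1 (iso h Qb).injective, b2, re_of hc b2 ⟨0, by simp [e0.1 a5]⟩,
      fun p hp => ?_⟩, ⟨k, b3⟩, e0.1 a5⟩
    by_cases m : p ∈ S
    · exact (Lp.loc_iff (hP p m) b2 b3).2 ((km_iff h).2 (a6 p m))
    · obtain ⟨_, Q, -, a⟩ := ur0 (x := fun g => iso h Qb (x g)) (mt (hS p hp.out) m) Lp.ov_PP a2 a1 a3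
        fun g i => a4 g ⟨p, m, _, Lp.ov_PP, i⟩
      exact (Lp.loc_iff Lp.ov_PP b2 b3).2 ((km_iff h).2 ⟨Q, a⟩)
  · have b3 : ∀ g, pp ^ k • iso h Qb (x g) = 0 := fun g => (map_nsmul ..).symm.trans (e0.2 (a5 g))
    have b4 : ∀ {l Q}, Ov l Q → (fun g => iso h Qb (x g)) ∈ Km A B (dec Q) := fun {l Q} o =>
      haveI : Fact l.Prime := ⟨o.1⟩
      (km_iff h).1 ((Lp.loc_iff o a2 a5).1 (a4 l))
    refine ⟨⟨a1.comp _, fun σ τ => by simp only [a2, map_add, iso_act], ⟨k, b3⟩, ?_, e0.2 a6⟩,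
      fun p m => b4 (hP p m)⟩
    rintro g ⟨l, m, Q, o, i⟩
    obtain ⟨R, a⟩ := b4 o
    have a : iso h Qb (x g) = _ := a g (inP_le_dec i)
    exact a.trans (sub_eq_zero.2 (ur1 (mt (hS l o.1) m) o i (a ▸ b3 g)))

/-- the class of a framed cocycle -/
def cls : Zs A B S c P →+ Sha E := (QuotientAddGroup.mk' _).comp
  (AddMonoidHom.codRestrict (((iso h Qb).symm.toAddMonoidHom.compLeft GQ).comp (Zs A B S c P).subtype)
    (shaCocycles E) fun x => ((zs_iff h hS hc hP).1 (by simpa using x.2)).1)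

theorem cls_zero {x : Zs A B S c P} : cls h hS hc hP x = 0 ↔ x.1 ∈ Zk A B S c := by
  refine (QuotientAddGroup.eq_zero_iff _).trans ⟨fun ⟨Q, a⟩ => ⟨(mem_Zs.1 x.2).1, ?_⟩, fun a => ?_⟩
  · simpa using (km_iff h (D := ⊤)).1 ⟨Q, fun g _ => a g⟩
  · obtain ⟨Q, a⟩ := (km_iff h (D := ⊤) (x := fun g => (iso h Qb).symm (x.1 g))).2 (by simpa using a.2)
    exact ⟨Q, fun g => a g trivial⟩

theorem cls_range {y : Sha E} : y ∈ (cls h hS hc hP).range ↔ ∃ k : ℕ, pp ^ k • y = 0 := by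
  refine ⟨fun ⟨x, e⟩ => (mem_Zs.1 x.2).1.2.2.1.imp fun k a => e ▸ (QuotientAddGroup.eq_zero_iff
    (pp ^ k • _)).2 ⟨0, fun g => ?_⟩, fun ⟨k, a⟩ => ?_⟩
  · show pp ^ k • (iso h Qb).symm (x.1 g) = _
    rw [← map_nsmul, a, map_zero, map_zero, sub_zero]
  obtain ⟨x, rfl⟩ := QuotientAddGroup.mk_surjective y
  obtain ⟨R, a⟩ := (QuotientAddGroup.eq_zero_iff (pp ^ k • x)).1 a
  obtain ⟨R, rfl⟩ := Lp.div_E (pow_ne_zero k pp_ne) R
  have m := sub_mem x.2 (P014F.cob_mem R)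
  have a1 : ∀ g, pp ^ k • (x.1 g - (act E g R - R)) = 0 := fun g => by
    rw [nsmul_sub, nsmul_sub, ← map_nsmul, sub_eq_zero]
    exact a g
  obtain ⟨T, a2, a3⟩ := of_re hc (a1 c) m.2.1
  refine ⟨⟨_, (zs_iff h hS hc hP).2 ⟨sub_mem m (P014F.cob_mem T), ⟨k, fun g => ?_⟩,
    sub_eq_zero.2 a3⟩⟩, QuotientAddGroup.eq.2 ⟨R + T, fun g => ?_⟩⟩
  · show pp ^ k • (x.1 g - (act E g R - R) - (act E g T - T)) = 0
    rw [nsmul_sub, nsmul_sub _ T, ← map_nsmul, a2, a1]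
    simp
  · show -(iso h Qb).symm (iso h Qb (x.1 g - (act E g R - R) - (act E g T - T))) + x.1 g = _
    rw [AddEquiv.symm_apply_apply, map_add]
    abel

/-- **the primary part of the group of Tate and Shafarevich** -/
def eqv : (Zs A B S c P ⧸ (Zk A B S c).addSubgroupOf (Zs A B S c P)) ≃+
    AddCommGroup.primaryComponent (Sha E) pp :=
  ((QuotientAddGroup.quotientAddEquivOfEq (AddSubgroup.ext fun _ => (cls_zero h hS hc hP).symm)).trans
    (QuotientAddGroup.quotientKerEquivRange _)).trans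
      (AddEquiv.addSubgroupCongr (AddSubgroup.ext fun _ => cls_range h hS hc hP))

include h

theorem card_sha : Nat.card (shaPrimary E pp) = (Zk A B S c).relIndex (Zs A B S c P) :=
  (Nat.card_congr (eqv h hS hc hP).toEquiv).symm

theorem fin_sha : Finite (shaPrimary E pp) ↔ (Zk A B S c).relIndex (Zs A B S c P) ≠ 0 := by
  rw [← card_sha h hS hc hP, Nat.card_ne_zero]
  exact (and_iff_right ⟨⟨0, zero_mem _⟩⟩).symm

end Vale.Agent.P014U.Sh
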