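import Vale.Agent.P014U.Sh.Lp
import Vale.Agent.P014U.X4M.TE.Tate
import Vale.Agent.P014T.Sh.Ur

/-!
# P014U: the real place and the good primes
-/

set_option linter.all false

open WeierstrassCurve NumberField
open scoped Classical

noncomputable section

namespace Vale.Agent.P014U.Sh

open Vale.Agent.P022 (Qb GQ IsConj)
open Vale.Agent.P027M.S (Inert)
open Vale.Agent.P022D.W (dec dec_gen exists_phi)
open Vale.Agent.P022E.GW (Ov)
open X4M.TE (Pt ga ga_mul ga_one ev_ga exists_rd inj_tors frob_ch char_ne disc_ne cs_le cs hg_two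
  mul_surj)
open Vale.Agent.P014 (Pbar act LocallyTrivial)

export Vale.Agent.P014T.Sh (Pn mp re_of Coc)

variable [Pp] {A B : ℤ} {l k : ℕ} {P : Ideal (𝓞 Qb)}

theorem of_re {E : WeierstrassCurve ℚ} {c : GQ} (hc : IsConj c) {x : GQ → Pbar E} {k : ℕ}
    (h2 : pp ^ k • x c = 0) (hx : ∀ σ τ, x (σ * τ) = x σ + act E σ (x τ)) :
    ∃ a, pp ^ k • a = 0 ∧ x c = act E c a - a := by
  obtain ⟨u, v, e⟩ := Nat.isCoprime_iff_coprime.2 (cop_two_pow k)
  have h1 : x 1 = 0 := left_eq_add.1 ((congrArg x (mul_one 1).symm).trans ((hx 1 1).trans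
    (congrArg _ (by cases x 1 <;> rfl))))
  have h3 := hx c c
  rw [show c * c = 1 from hc.elim fun φ e => AlgEquiv.ext fun y => φ.injective (by
    simp [e]), h1, eq_comm, add_eq_zero_iff_neg_eq] at h3
  refine ⟨-(u • x c), by rw [neg_nsmul, smul_comm, h2, zsmul_zero, neg_zero], ?_⟩
  rw [map_neg, map_zsmul, ← h3]
  rw [← natCast_zsmul] at h2
  linear_combination (norm := module) v • h2 - e • x c

theorem div {M : Type} [AddCommGroup M] (hD : ∀ y : M, ∃ z, pp • z = y) {n : ℕ} (hn : n ≠ 0) {y : M}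
    (hy : pp ^ k • y = 0) : ∃ j b, pp ^ j • b = 0 ∧ n • b = y := by
  obtain ⟨e, m, om, rfl⟩ := Nat.exists_eq_pow_mul_and_not_dvd hn pp one_lt.ne'
  induction e with
  | zero =>
    obtain ⟨u, v, e⟩ : IsCoprime (m : ℤ) (pp ^ k : ℕ) := Nat.isCoprime_iff_coprime.2
      (((Nat.Prime.coprime_iff_not_dvd pp_prime).2 om).symm.pow_right k)
    refine ⟨k, u • y, by rw [smul_comm, hy, smul_zero], ?_⟩
    rw [pow_zero, one_mul, ← natCast_zsmul, ← mul_smul, mul_comm, eq_sub_of_add_eq e, sub_smul,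
      mul_smul, natCast_zsmul, hy, smul_zero, sub_zero, one_smul]
  | succ e i =>
    obtain ⟨j, b, h, rfl⟩ := i (mul_ne_zero (pow_ne_zero _ pp_ne) (right_ne_zero_of_mul hn))
    obtain ⟨b, rfl⟩ := hD b
    exact ⟨j + 1, b, by rwa [pow_succ, mul_smul], by rw [← mul_smul, pow_succ, mul_right_comm]⟩

theorem slv {M : Type} [AddCommGroup M] (F : M →+ M) {s l : ℤ} {n : ℕ} {b : M} (hn : l + 1 + s = n)
    (hb : pp ^ k • b = 0) : pp ^ k • (F (F b) + s • F b + l • b) = 0 ∧ ∃ Q, pp ^ k • Q = 0 ∧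
      (F (F b) + s • F b + l • b = 0 → n • b = F Q - Q) := by
  refine ⟨?_, -(F b + (1 + s) • b), ?_, fun e => ?_⟩
  · simp [smul_comm (pp ^ k), ← map_nsmul, hb]
  · simp [smul_comm (pp ^ k), ← map_nsmul, hb]
  · rw [← natCast_zsmul, ← hn, map_neg, map_add, map_zsmul, ← sub_eq_zero, ← e]
    module

variable (hg : ¬ (l : ℤ) ∣ 2 * pp * (4 * A ^ 3 + 27 * B ^ 2)) (o : Ov l P)
include hg o

/-- **Kummer classes are unramified at the good primes** -/
theorem ur1 {g : GQ} (hi : Inert P g) {Q : Pt A B} (h : pp ^ k • (ga g Q - Q) = 0) : ga g Q = Q := by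
  have : Fact l.Prime := ⟨o.1⟩
  obtain ⟨κ, _, _, _, rd, h1, h2, -⟩ := exists_rd hg o.2.1 o.2.2
  exact sub_eq_zero.1 (inj_tors h1 k h (by rw [map_sub, h2 g hi, sub_self]))

/-- **unramified classes are locally trivial at the good primes** -/
theorem ur0 {x : GQ → Pt A B} (hx : Coc x) (lc : IsLocallyConstant x) (h2 : ∀ g, pp ^ k • x g = 0)
    (ur : ∀ g, Inert P g → x g = 0) : ∃ j Q, pp ^ j • Q = 0 ∧ ∀ g ∈ dec P, x g = ga g Q - Q := by
  have : Fact l.Prime := ⟨o.1⟩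
  obtain ⟨σ, hσ⟩ := exists_phi o.1 o.2.1 o.2.2
  obtain ⟨κ, _, _, _, rd, h1, -, h3⟩ := exists_rd hg o.2.1 o.2.2
  have hH := cs_le (hg_two hg)
  have h4 : (2 : ℤ) ≤ l := by exact_mod_cast o.1.two_le
  set s := cs (A : ZMod l) (B : ZMod l) with hs
  obtain ⟨n, hn⟩ := Int.eq_ofNat_of_zero_le (show 0 ≤ l + 1 + s by nlinarith)
  have hD : 4 * A ^ 3 + 27 * B ^ 2 ≠ 0 := fun e => hg (by simp [e])
  obtain ⟨j, b, hb, e⟩ := div (mul_surj two_ne_zero (by exact_mod_cast hD) pp_ne) (n := n) (by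
    rintro rfl
    rw [show s = -(l + 1) by push_cast at hn; linarith] at hH
    nlinarith) (h2 σ)
  obtain ⟨t, Q, tq, ch⟩ := slv (ga σ) hn hb
  have ch := ch (inj_tors h1 j t (by
    have := frob_ch (char_ne (hg_two hg)) (disc_ne (hg_two hg)) (rd b)
    rw [ZMod.card] at this
    simpa only [map_add, map_zsmul, h3 σ hσ] using this))
  refine ⟨j, Q, tq, fun g hg' => ?_⟩
  obtain ⟨m, i, u, hi, hu, rfl⟩ := dec_gen o.1 o.2.1 o.2.2 hσ hg' _ (hx.eqz_open lc Q)
  refine mul_mem (mul_mem hu (pow_mem (e.symm.trans ch) m)) (show _ = _ from ?_)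
  rw [ur i hi, ur1 hg o hi (k := j), sub_self]
  rw [nsmul_sub, ← map_nsmul, tq, map_zero, sub_zero]

end Vale.Agent.P014U.Sh
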